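import Vale.Agent.P072.Flow

/-!
# The permanence conjecture for weakly reversible mass-action systems
-/

namespace Vale.Agent.Results.P072.PermanenceConjecture

open Vale.Agent.P072

/-- Every weakly reversible mass-action system is permanent on every positive stoichiometric
class, for constant positive rates and also for continuously varying rates within fixed positive
bounds. -/
theorem result {d : ℕ} (R : Finset (Reaction d)) (hwr : WeaklyReversible R)
    (c : Fin d → ℝ) (hc : ∀ i, 0 < c i) :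
    (∀ k : Reaction d → ℝ, (∀ r ∈ R, 0 < k r) → Permanent R (fun _ => k) c) ∧
      ∀ (lo hi : ℝ) (k : ℝ → Reaction d → ℝ), 0 < lo →
        (∀ r ∈ R, ContinuousOn (fun t => k t r) (Set.Ici 0)) →
        (∀ t, 0 ≤ t → ∀ r ∈ R, lo ≤ k t r ∧ k t r ≤ hi) → Permanent R k c := by
  refine ⟨fun k hk => ?_, fun lo hi k hlo hkc hb => permanent R hwr hlo hc k hkc hb⟩
  have hsum : 0 ≤ ∑ r ∈ R, (k r)⁻¹ := Finset.sum_nonneg fun r hr => (inv_pos.2 (hk r hr)).le
  refine permanent R hwr (lo := (∑ r ∈ R, (k r)⁻¹ + 1)⁻¹) (hi := ∑ r ∈ R, k r)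
    (inv_pos.2 (by linarith)) hc _ (fun r _ => continuousOn_const) fun t _ r hr => ⟨?_, ?_⟩
  · have h1 : (k r)⁻¹ ≤ ∑ s ∈ R, (k s)⁻¹ + 1 :=
      (Finset.single_le_sum (f := fun s => (k s)⁻¹) (fun s hs => (inv_pos.2 (hk s hs)).le) hr).trans
        (by linarith)
    calc (∑ s ∈ R, (k s)⁻¹ + 1)⁻¹ ≤ ((k r)⁻¹)⁻¹ := inv_anti₀ (inv_pos.2 (hk r hr)) h1
      _ = k r := inv_inv _
  · exact Finset.single_le_sum (fun s hs => (hk s hs).le) hr

end Vale.Agent.Results.P072.PermanenceConjecture
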